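import Vale.Agent.P321.H678.Prod4
import Vale.Agent.P321.R2.H613.Step6

/-! # The step with four factors and tests at several scales: statements -/

namespace Vale.Agent.P321.H775

open Complex Finset Vale.Agent.P321.UB Vale.Agent.P321.R2.H613 Vale.Agent.P321.H678

/-- Conclusion of the step: a product of four derived sequences with a large one-sided sum. -/
def StepConcl (lam β Y : ℝ) (S n i1 : ℕ) (f f' : ℕ → ℕ → ℂ) (D κ0 κ : ℝ) : Prop :=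
  ∃ g g' F F' : Fin 4 → ℕ → ℂ, (∀ m, ∃ j ≤ S, Simple6 (f j) (f' j) (g m) (g' m)) ∧
    (∀ m, Derived3 κ (Y * κ0) (g m) (g' m) (F m) (F' m)) ∧
    ∃ s : ℂ, s.re = 100 * κ ∧ |s.im| ≤ β * (100 * κ) ∧
      Real.exp (-(lam * D)) ≤
        ‖NN n i1 (fun i => F 0 i * F 1 i * F 2 i * F 3 i)
          (fun i => F' 0 i * F' 1 i * F' 2 i * F' 3 i) s‖

/-- The local step (no condition on `n`). Tests are given at the scales `κ0 / K ^ j`, `j ≤ S`. -/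
def StepQ (lam β Y V E K : ℝ) (S : ℕ) : Prop :=
  ∀ (n i1 : ℕ) (f f' : ℕ → ℕ → ℂ) (D κ0 κ : ℝ) (s0 : ℕ → ℂ), i1 ≤ n →
    (∀ j ≤ S, ∀ i, (starRingEnd ℂ) (f j i) = f j i) →
    (∀ j ≤ S, ∀ i, (starRingEnd ℂ) (f' j i) = f' j i) → E ≤ D →
    (∀ j ≤ S, ∀ i ≤ n, ‖f j i‖ ≤ 1) → (∀ j ≤ S, ∀ i ≤ n, ‖f' j i‖ ≤ 1) →
    (∀ j ≤ S, ∀ i < i1, f j i = f' j i) →
    Real.exp (-(D / E)) ≤ κ → V * κ ≤ κ0 / K ^ S → V * κ0 ≤ 1 →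
    (∀ j ≤ S, (s0 j).re = κ0 / K ^ j) → (∀ j ≤ S, |(s0 j).im| ≤ β * (κ0 / K ^ j)) →
    (∀ j ≤ S, Real.exp (-D) ≤ ‖NN n i1 (f j) (f' j) (s0 j)‖) →
    StepConcl lam β Y S n i1 f f' D κ0 κ

/-- The same with the condition `n + 1 ≤ exp (D / E)`. -/
def StepQn (lam β Y V E K : ℝ) (S : ℕ) : Prop :=
  ∀ (n i1 : ℕ) (f f' : ℕ → ℕ → ℂ) (D κ0 κ : ℝ) (s0 : ℕ → ℂ), i1 ≤ n →
    (∀ j ≤ S, ∀ i, (starRingEnd ℂ) (f j i) = f j i) →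
    (∀ j ≤ S, ∀ i, (starRingEnd ℂ) (f' j i) = f' j i) → E ≤ D →
    (∀ j ≤ S, ∀ i ≤ n, ‖f j i‖ ≤ 1) → (∀ j ≤ S, ∀ i ≤ n, ‖f' j i‖ ≤ 1) →
    (∀ j ≤ S, ∀ i < i1, f j i = f' j i) → (n : ℝ) + 1 ≤ Real.exp (D / E) →
    Real.exp (-(D / E)) ≤ κ → V * κ ≤ κ0 / K ^ S → V * κ0 ≤ 1 →
    (∀ j ≤ S, (s0 j).re = κ0 / K ^ j) → (∀ j ≤ S, |(s0 j).im| ≤ β * (κ0 / K ^ j)) →
    (∀ j ≤ S, Real.exp (-D) ≤ ‖NN n i1 (f j) (f' j) (s0 j)‖) →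
    StepConcl lam β Y S n i1 f f' D κ0 κ

end Vale.Agent.P321.H775
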