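import Vale.Agent.P321.H775.Boot
import Vale.Agent.P321.H775.QDefs

/-! # Assembly of the step with four factors -/

namespace Vale.Agent.P321.H775

open Complex Finset Vale.Agent.P321.UB Vale.Agent.P321.R2.H613 Vale.Agent.P321.H678
  Vale.Agent.P321.R3.H101

/-- The level lemma (mean Poisson–Jensen) as a statement. -/
def LevelQ (η V : ℝ) : Prop :=
  ∀ (n i1 N : ℕ) (f f' : ℕ → ℂ) (D κj κ θ T β : ℝ) (s0 : ℂ), 1 ≤ β → β + 10 / η ≤ T →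
    T ≤ 30 / η → i1 ≤ n →
    (∀ i, (starRingEnd ℂ) (f i) = f i) → (∀ i, (starRingEnd ℂ) (f' i) = f' i) →
    (∀ i ≤ n, ‖f i‖ ≤ 1) → (∀ i ≤ n, ‖f' i‖ ≤ 1) →
    (∀ i < i1, f i = f' i) →
    (n : ℝ) + 1 ≤ Real.exp (η * D / 100) → 100 / η ≤ D → 0 < κ → V * κ ≤ κj →
    T * κj ≤ η / 1000 → 0 < θ → κ ^ 2 * θ ^ 2 = η * D / 5300 →
    2 * T * κj ≤ N * κ → N * κ ≤ 3 * T * κj → s0.re = κj → |s0.im| ≤ β * κj →
    Real.exp (-D) ≤ ‖NN n i1 f f' s0‖ →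
    ∃ φ x : ℕ → ℝ, (∀ j, 0 ≤ φ j) ∧
      (∀ j < N, j * κ ≤ x j ∧ x j ≤ (j + 1) * κ ∧
        Real.exp (-(φ j)) ≤ ‖VV n i1 θ κ f (x j) - VV n i1 θ κ f' (x j)‖) ∧
      (∀ t : ℕ, t * κ ≤ (η / 10) * κj → ∃ j, j + t < N ∧ φ j + φ (j + t) ≤ (2 + 20 * η) * D) ∧
      (∃ a < N, φ a ≤ (1 + 10 * η) * D)

/-- All product relations. -/
def RelQ (S n i1 : ℕ) (f f' : ℕ → ℕ → ℂ) (θ κ X Δ : ℝ) : Prop :=
  ∀ g g' : Fin 4 → ℕ → ℂ, (∀ m, ∃ j ≤ S, Simple6 (f j) (f' j) (g m) (g' m)) →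
    ∀ ξ : Fin 4 → ℝ, (∀ m, |ξ m| ≤ X) → |ξ 0 + ξ 1 + ξ 2 + ξ 3| ≤ 3 * κ →
    ‖VV n i1 θ κ (g 0) (ξ 0) * VV n i1 θ κ (g 1) (ξ 1) * VV n i1 θ κ (g 2) (ξ 2) *
        VV n i1 θ κ (g 3) (ξ 3) -
      VV n i1 θ κ (g' 0) (ξ 0) * VV n i1 θ κ (g' 1) (ξ 1) * VV n i1 θ κ (g' 2) (ξ 2) *
        VV n i1 θ κ (g' 3) (ξ 3)‖ ≤ Δ

section rel
variable {S n i1 : ℕ} {f f' : ℕ → ℕ → ℂ} {θ κ X Δ : ℝ}

/-- square relation -/
theorem RelQ.sq (R : RelQ S n i1 f f' θ κ X Δ) (hi : i1 ≤ n) (hX : 0 ≤ X) (hκ : 0 < κ)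
    (hreal : ∀ j ≤ S, ∀ i, (starRingEnd ℂ) (f j i) = f j i)
    (hreal' : ∀ j ≤ S, ∀ i, (starRingEnd ℂ) (f' j i) = f' j i) {j : ℕ} (hj : j ≤ S) {ξ : ℝ}
    (hξ : |ξ| ≤ X) :
    |‖VV n i1 θ κ (f j) ξ‖ ^ 2 - ‖VV n i1 θ κ (f' j) ξ‖ ^ 2| ≤ Δ := by
  have h := R ![f j, f j, fun _ => 1, fun _ => 1] ![f' j, f' j, fun _ => 1, fun _ => 1] (by
      intro m
      fin_cases m
      · exact ⟨j, hj, Or.inl ⟨rfl, rfl⟩⟩
      · exact ⟨j, hj, Or.inl ⟨rfl, rfl⟩⟩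
      · exact ⟨j, hj, Or.inr ⟨rfl, rfl⟩⟩
      · exact ⟨j, hj, Or.inr ⟨rfl, rfl⟩⟩) ![ξ, -ξ, 0, 0] (by
      intro m
      fin_cases m
      · simpa using hξ
      · simpa using hξ
      · simpa using hX
      · simpa using hX) (by simp; positivity)
  simp only [Matrix.cons_val_zero, Matrix.cons_val_one, Matrix.cons_val] at h
  rw [VV_real_neg (hreal j hj), VV_real_neg (hreal' j hj), ← sub_mul, ← sub_mul, norm_mul,
    norm_mul] at h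
  have h1 := one_le_norm_VV_one hi θ κ
  have h2 : ‖VV n i1 θ κ (f j) ξ * (starRingEnd ℂ) (VV n i1 θ κ (f j) ξ) -
      VV n i1 θ κ (f' j) ξ * (starRingEnd ℂ) (VV n i1 θ κ (f' j) ξ)‖ ≤ Δ := by
    refine le_trans ?_ h
    have h3 := norm_nonneg (VV n i1 θ κ (f j) ξ * (starRingEnd ℂ) (VV n i1 θ κ (f j) ξ) -
      VV n i1 θ κ (f' j) ξ * (starRingEnd ℂ) (VV n i1 θ κ (f' j) ξ))
    refine (le_mul_of_one_le_right h3 h1).trans ?_
    exact le_mul_of_one_le_right (by positivity) h1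
  rw [Complex.mul_conj, Complex.mul_conj, Complex.normSq_eq_norm_sq, Complex.normSq_eq_norm_sq,
    ← Complex.ofReal_sub, Complex.norm_real, Real.norm_eq_abs] at h2
  exact h2

/-- four factor relation -/
theorem RelQ.four (R : RelQ S n i1 f f' θ κ X Δ)
    (hreal : ∀ j ≤ S, ∀ i, (starRingEnd ℂ) (f j i) = f j i)
    (hreal' : ∀ j ≤ S, ∀ i, (starRingEnd ℂ) (f' j i) = f' j i) {j : ℕ} (hj : j ≤ S)
    {a b c d : ℝ} (ha : |a| ≤ X) (hb : |b| ≤ X) (hc : |c| ≤ X) (hd : |d| ≤ X)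
    (hs : |a - b - c + d| ≤ 3 * κ) :
    ‖VV n i1 θ κ (f j) a * (starRingEnd ℂ) (VV n i1 θ κ (f j) b) *
        ((starRingEnd ℂ) (VV n i1 θ κ (f j) c) * VV n i1 θ κ (f j) d) -
      VV n i1 θ κ (f' j) a * (starRingEnd ℂ) (VV n i1 θ κ (f' j) b) *
        ((starRingEnd ℂ) (VV n i1 θ κ (f' j) c) * VV n i1 θ κ (f' j) d)‖ ≤ Δ := by
  have h := R ![f j, f j, f j, f j] ![f' j, f' j, f' j, f' j] (by
      intro m
      fin_cases m <;> exact ⟨j, hj, Or.inl ⟨rfl, rfl⟩⟩) ![a, -b, -c, d] (by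
      intro m
      fin_cases m
      · simpa using ha
      · simpa using hb
      · simpa using hc
      · simpa using hd) (by
      simp only [Matrix.cons_val_zero, Matrix.cons_val_one, Matrix.cons_val]
      have : a + -b + -c + d = a - b - c + d := by ring
      rw [this]
      exact hs)
  simp only [Matrix.cons_val_zero, Matrix.cons_val_one, Matrix.cons_val] at h
  rw [VV_real_neg (hreal j hj), VV_real_neg (hreal' j hj), VV_real_neg (hreal j hj),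
    VV_real_neg (hreal' j hj), mul_assoc (_ * _) _ _, mul_assoc (_ * _) _ _] at h
  exact h

/-- triple relation -/
theorem RelQ.three (R : RelQ S n i1 f f' θ κ X Δ) (hi : i1 ≤ n) (hX : 0 ≤ X)
    (hreal : ∀ j ≤ S, ∀ i, (starRingEnd ℂ) (f j i) = f j i)
    (hreal' : ∀ j ≤ S, ∀ i, (starRingEnd ℂ) (f' j i) = f' j i) {j k : ℕ} (hj : j ≤ S)
    (hk : k ≤ S) {a b c : ℝ} (ha : |a| ≤ X) (hb : |b| ≤ X) (hc : |c| ≤ X)
    (hs : |a + b - c| ≤ 3 * κ) :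
    ‖VV n i1 θ κ (f k) a * VV n i1 θ κ (f j) b * (starRingEnd ℂ) (VV n i1 θ κ (f j) c) -
      VV n i1 θ κ (f' k) a * VV n i1 θ κ (f' j) b *
        (starRingEnd ℂ) (VV n i1 θ κ (f' j) c)‖ ≤ Δ := by
  have h := R ![f k, f j, f j, fun _ => 1] ![f' k, f' j, f' j, fun _ => 1] (by
      intro m
      fin_cases m
      · exact ⟨k, hk, Or.inl ⟨rfl, rfl⟩⟩
      · exact ⟨j, hj, Or.inl ⟨rfl, rfl⟩⟩
      · exact ⟨j, hj, Or.inl ⟨rfl, rfl⟩⟩
      · exact ⟨j, hj, Or.inr ⟨rfl, rfl⟩⟩) ![a, b, -c, 0] (by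
      intro m
      fin_cases m
      · simpa using ha
      · simpa using hb
      · simpa using hc
      · simpa using hX) (by
      simp only [Matrix.cons_val_zero, Matrix.cons_val_one, Matrix.cons_val]
      have : a + b + -c + 0 = a + b - c := by ring
      rw [this]
      exact hs)
  simp only [Matrix.cons_val_zero, Matrix.cons_val_one, Matrix.cons_val] at h
  rw [VV_real_neg (hreal j hj), VV_real_neg (hreal' j hj), ← sub_mul, norm_mul] at h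
  refine le_trans ?_ h
  exact le_mul_of_one_le_right (norm_nonneg _) (one_le_norm_VV_one hi θ κ)

end rel


theorem norm_seqS_le {n : ℕ} {z : ℂ} (hz : ‖z‖ ≤ 1) {f : ℕ → ℂ} (hf : ∀ i ≤ n, ‖f i‖ ≤ 1) :
    ∀ i ≤ n + 1, ‖seqS z f i‖ ≤ i := by
  intro i
  induction i with
  | zero => intro _; simp [seqS]
  | succ i ih =>
    intro hi
    have h1 := ih (by omega)
    have h2 := hf i (by omega)
    have e : seqS z f (i + 1) = z * seqS z f i + f i := rfl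
    rw [e]
    refine (norm_add_le _ _).trans ?_
    rw [norm_mul]
    have h3 : ‖z‖ * ‖seqS z f i‖ ≤ 1 * i := by gcongr
    push_cast
    linarith

theorem norm_zκ_le {κ : ℝ} (hκ : 0 ≤ κ) (y : ℝ) : ‖cexp (-((κ : ℂ) + y * I))‖ ≤ 1 := by
  rw [Complex.norm_exp]
  simp
  exact hκ

theorem norm_Derived3_le {n : ℕ} {κ Y : ℝ} (hκ : 0 ≤ κ) {g g' F F' : ℕ → ℂ}
    (h : Derived3 κ Y g g' F F') (hg : ∀ i ≤ n, ‖g i‖ ≤ 1) (hg' : ∀ i ≤ n, ‖g' i‖ ≤ 1) :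
    ∀ i ≤ n, ‖F i‖ ≤ (n : ℝ) + 1 ∧ ‖F' i‖ ≤ (n : ℝ) + 1 := by
  intro i hi
  have hin : (i : ℝ) ≤ n := by exact_mod_cast hi
  have hn0 : (0 : ℝ) ≤ n := Nat.cast_nonneg _
  rcases h with ⟨h1, h2⟩ | ⟨y, -, h1, h2⟩ | ⟨y, -, h1, h2⟩
  · rw [h1, h2]
    exact ⟨(hg i hi).trans (by linarith), (hg' i hi).trans (by linarith)⟩
  · rw [h1, h2]
    exact ⟨(norm_seqS_le (norm_zκ_le hκ y) hg i (by omega)).trans (by linarith),
      (norm_seqS_le (norm_zκ_le hκ y) hg' i (by omega)).trans (by linarith)⟩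
  · rw [h1, h2]
    have a1 := norm_seqS_le (norm_zκ_le hκ y) hg (i + 1) (by omega)
    have a2 := norm_seqS_le (norm_zκ_le hκ y) hg' (i + 1) (by omega)
    have e1 : seqS (cexp (-((κ : ℂ) + y * I))) g (i + 1) =
      cexp (-((κ : ℂ) + y * I)) * seqS (cexp (-((κ : ℂ) + y * I))) g i + g i := rfl
    have e2 : seqS (cexp (-((κ : ℂ) + y * I))) g' (i + 1) =
      cexp (-((κ : ℂ) + y * I)) * seqS (cexp (-((κ : ℂ) + y * I))) g' i + g' i := rfl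
    rw [e1] at a1
    rw [e2] at a2
    push_cast at a1 a2
    exact ⟨a1.trans (by linarith), a2.trans (by linarith)⟩

theorem norm_prod4_le {A : ℝ} (hA : 0 ≤ A) {a b c d : ℂ} (ha : ‖a‖ ≤ A) (hb : ‖b‖ ≤ A)
    (hc : ‖c‖ ≤ A) (hd : ‖d‖ ≤ A) : ‖a * b * c * d‖ ≤ A ^ 4 := by
  rw [norm_mul, norm_mul, norm_mul]
  calc ‖a‖ * ‖b‖ * ‖c‖ * ‖d‖ ≤ A * A * A * A := by gcongr
    _ = A ^ 4 := by ring

theorem triv4 {n i1 : ℕ} {κ : ℝ} (hκ : 0 ≤ κ) {g g' F F' : Fin 4 → ℕ → ℂ}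
    (h : ∀ m, ∃ Y', Derived3 κ Y' (g m) (g' m) (F m) (F' m))
    (hg : ∀ m, ∀ i ≤ n, ‖g m i‖ ≤ 1) (hg' : ∀ m, ∀ i ≤ n, ‖g' m i‖ ≤ 1) {s : ℂ}
    (hs : 0 ≤ s.re) (hi : i1 ≤ n) :
    ‖NN n i1 (fun i => F 0 i * F 1 i * F 2 i * F 3 i)
      (fun i => F' 0 i * F' 1 i * F' 2 i * F' 3 i) s‖ ≤ 2 * ((n : ℝ) + 1) ^ 5 := by
  have hn0 : (0 : ℝ) ≤ (n : ℝ) + 1 := by positivity
  have hF : ∀ m, ∀ i ≤ n, ‖F m i‖ ≤ (n : ℝ) + 1 ∧ ‖F' m i‖ ≤ (n : ℝ) + 1 := by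
    intro m
    obtain ⟨Y', hY⟩ := h m
    exact norm_Derived3_le hκ hY (hg m) (hg' m)
  unfold NN
  refine (norm_expSum_le (A := 2 * ((n : ℝ) + 1) ^ 4) ?_ hs).trans ?_
  · intro k hk
    have hk' : i1 + k ≤ n := by omega
    unfold dif
    refine (norm_sub_le _ _).trans ?_
    have e1 := norm_prod4_le hn0 (hF 0 _ hk').1 (hF 1 _ hk').1 (hF 2 _ hk').1 (hF 3 _ hk').1
    have e2 := norm_prod4_le hn0 (hF 0 _ hk').2 (hF 1 _ hk').2 (hF 2 _ hk').2 (hF 3 _ hk').2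
    linarith
  · have h1 : ((n + 1 - i1 : ℕ) : ℝ) ≤ (n : ℝ) + 1 := by
      have : n + 1 - i1 ≤ n + 1 := by omega
      exact_mod_cast this
    calc ((n + 1 - i1 : ℕ) : ℝ) * (2 * ((n : ℝ) + 1) ^ 4)
        ≤ ((n : ℝ) + 1) * (2 * ((n : ℝ) + 1) ^ 4) := by gcongr
      _ = _ := by ring

theorem Simple6.norm {f f' g g' : ℕ → ℂ} {n : ℕ} (h : Simple6 f f' g g')
    (hf : ∀ i ≤ n, ‖f i‖ ≤ 1) (hf' : ∀ i ≤ n, ‖f' i‖ ≤ 1) :
    (∀ i ≤ n, ‖g i‖ ≤ 1) ∧ (∀ i ≤ n, ‖g' i‖ ≤ 1) := h.norm_le hf hf'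

/-- Crude bound of a windowed sum. -/
theorem norm_VV_le {n i1 : ℕ} {θ κ : ℝ} (hθ : 0 < θ) {f : ℕ → ℂ} (hf : ∀ i ≤ n, ‖f i‖ ≤ 1)
    (ξ : ℝ) : ‖VV n i1 θ κ f ξ‖ ≤ ((n : ℝ) + 1) * Real.exp (κ ^ 2 * θ ^ 2 / 2) := by
  unfold VV
  refine (norm_sum_le _ _).trans ?_
  have : ∀ i ∈ range (n + 1), ‖f i * wnd θ κ ξ ((i : ℝ) - i1)‖ ≤
      Real.exp (κ ^ 2 * θ ^ 2 / 2) := by
    intro i hi
    have h1 := hf i (by have := mem_range.1 hi; omega)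
    rw [norm_mul]
    have h2 : ‖wnd θ κ ξ ((i : ℝ) - i1)‖ ≤ Real.exp (κ ^ 2 * θ ^ 2 / 2) := by
      unfold wnd
      set x : ℝ := (i : ℝ) - i1 with hx
      have e : (-((x : ℝ) : ℂ) ^ 2 / (2 * (θ : ℂ) ^ 2) - (κ : ℂ) * (x : ℂ) + I * ξ * (x : ℂ)) =
          (((-x ^ 2 / (2 * θ ^ 2) - κ * x : ℝ) : ℂ)) + ((ξ * x : ℝ) : ℂ) * I := by
        push_cast; ring
      rw [Complex.norm_exp, e]
      have e2 : ((((-x ^ 2 / (2 * θ ^ 2) - κ * x : ℝ) : ℂ)) + ((ξ * x : ℝ) : ℂ) * I).re =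
          -x ^ 2 / (2 * θ ^ 2) - κ * x := by
        rw [Complex.add_re, Complex.ofReal_re, Complex.re_ofReal_mul, Complex.I_re, mul_zero,
          add_zero]
      rw [e2]
      apply Real.exp_le_exp.2
      have hθ2 : 0 < θ ^ 2 := by positivity
      rw [div_sub' (by positivity), div_le_div_iff₀ (by positivity) (by norm_num)]
      nlinarith [sq_nonneg (x + κ * θ ^ 2)]
    calc ‖f i‖ * ‖wnd θ κ ξ ((i : ℝ) - i1)‖ ≤ 1 * Real.exp (κ ^ 2 * θ ^ 2 / 2) := by gcongr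
      _ = _ := one_mul _
  refine (Finset.sum_le_sum this).trans ?_
  rw [Finset.sum_const, Finset.card_range, nsmul_eq_mul]
  push_cast
  exact le_rfl

/-- The bound of the product relations. -/
theorem relQ_of {lam β Y : ℝ} {S n i1 : ℕ} {f f' : ℕ → ℕ → ℂ} {D κ0 κ θ η X : ℝ}
    (hη : 0 < η) (hη1 : η ≤ 1 / 10) (hlam : 4 + 50 * η ≤ lam) (hβ : 13 / η ≤ β)
    (hi : i1 ≤ n) (hf : ∀ j ≤ S, ∀ i ≤ n, ‖f j i‖ ≤ 1) (hf' : ∀ j ≤ S, ∀ i ≤ n, ‖f' j i‖ ≤ 1)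
    (heq : ∀ j ≤ S, ∀ i < i1, f j i = f' j i) (hn : (n : ℝ) + 1 ≤ Real.exp (η * D / 100))
    (hD : 100 / η ≤ D) (hκ : 0 < κ) (hθ : 0 < θ) (hκθ : κ ^ 2 * θ ^ 2 = η * D / 5300)
    (hY : X + 300 * κ / η ≤ Y * κ0)
    (hcon : ¬ StepConcl lam β Y S n i1 f f' D κ0 κ) :
    RelQ S n i1 f f' θ κ X (Real.exp (-((4 + 42 * η) * D))) := by
  intro g g' hg ξ hξ hsum
  have hηD : 100 ≤ η * D := by
    rw [div_le_iff₀ hη] at hD
    linarith
  have hD0 : 0 < D := by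
    by_contra h
    push Not at h
    nlinarith
  unfold StepConcl at hcon
  push Not at hcon
  have hbd : ∀ m, (∀ i ≤ n, ‖g m i‖ ≤ 1) ∧ (∀ i ≤ n, ‖g' m i‖ ≤ 1) := by
    intro m
    obtain ⟨j, hj, h⟩ := hg m
    exact h.norm_le (hf j hj) (hf' j hj)
  have hkey := product_relation4 (n := n) (i1 := i1) hi (κ := κ) (ω := κ) (σ := 103 * κ)
    (θ := θ) (H := 300 * κ / η) (δ := Real.exp (-(lam * D))) (M := 2 * ((n : ℝ) + 1) ^ 5)
    (Y := Y * κ0) (Rt := β * (100 * κ)) hκ.le hθ (by positivity) (Real.exp_pos _).le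
    (by positivity) (g := g) (g' := g')
    (by
      intro m
      obtain ⟨j, hj, h⟩ := hg m
      exact h.eq_of (heq j hj)) ξ
    (fun m => by have := hξ m; linarith)
    (by
      have h1 : 13 / η * (100 * κ) ≤ β * (100 * κ) := by gcongr
      have h2 : 3 * κ + 4 * (300 * κ / η) ≤ 13 / η * (100 * κ) := by
        have : 3 * κ ≤ 100 * κ / η := by
          rw [le_div_iff₀ hη]
          nlinarith
        have e : 13 / η * (100 * κ) = 4 * (300 * κ / η) + 100 * κ / η := by ring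
        rw [e]
        linarith
      linarith)
    (by
      intro F F' hF s hs1 hs2
      have := hcon g g' F F' hg hF s (by rw [hs1]; ring) hs2
      exact this.le)
    (by
      intro F F' hF s hs1
      refine triv4 hκ.le hF (fun m => (hbd m).1) (fun m => (hbd m).2) ?_ hi
      rw [hs1]
      linarith)
  refine hkey.trans ?_
  have e1 : ((103 * κ - κ) ^ 2 + 3 * (κ + κ) ^ 2) * θ ^ 2 / 2 = 5208 / 5300 * (η * D) := by
    calc ((103 * κ - κ) ^ 2 + 3 * (κ + κ) ^ 2) * θ ^ 2 / 2 = 5208 * (κ ^ 2 * θ ^ 2) := by ring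
      _ = _ := by rw [hκθ]; ring
  have e2 : θ ^ 2 * (300 * κ / η) ^ 2 / 2 = 45000 / 5300 * D / η := by
    calc θ ^ 2 * (300 * κ / η) ^ 2 / 2 = 45000 * (κ ^ 2 * θ ^ 2) / η ^ 2 := by ring
      _ = _ := by rw [hκθ]; field_simp
  rw [e1, e2]
  set u := η * D with hu
  have hDu : D = u / η := by rw [hu]; field_simp
  -- the first term
  have t1 : 4 * (Real.exp (5208 / 5300 * u) * Real.exp (-(lam * D))) ≤
      Real.exp (-((4 + 42 * η) * D)) / 2 := by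
    have h1 : Real.exp (-(lam * D)) ≤ Real.exp (-(4 * D + 50 * u)) := by
      apply Real.exp_le_exp.2
      rw [hu]
      nlinarith
    have h2 : Real.exp (5208 / 5300 * u) * Real.exp (-(4 * D + 50 * u)) ≤
        Real.exp (-((4 + 42 * η) * D)) * Real.exp (-u) := by
      rw [← Real.exp_add, ← Real.exp_add]
      apply Real.exp_le_exp.2
      have : (4 + 42 * η) * D = 4 * D + 42 * u := by rw [hu]; ring
      rw [this]
      linarith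
    have h3 : Real.exp (-u) ≤ 1 / 8 := by
      rw [Real.exp_neg, ← one_div]
      apply one_div_le_one_div_of_le (by norm_num)
      have := Real.add_one_le_exp u
      linarith
    have h4 : 0 < Real.exp (5208 / 5300 * u) := Real.exp_pos _
    have h5 : 0 < Real.exp (-((4 + 42 * η) * D)) := Real.exp_pos _
    calc 4 * (Real.exp (5208 / 5300 * u) * Real.exp (-(lam * D)))
        ≤ 4 * (Real.exp (5208 / 5300 * u) * Real.exp (-(4 * D + 50 * u))) := by gcongr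
      _ ≤ 4 * (Real.exp (-((4 + 42 * η) * D)) * Real.exp (-u)) := by gcongr
      _ ≤ 4 * (Real.exp (-((4 + 42 * η) * D)) * (1 / 8)) := by gcongr
      _ = _ := by ring
  -- the second term
  have t2 : 4 * (Real.exp (5208 / 5300 * u) * (8 * (2 * ((n : ℝ) + 1) ^ 5) *
      Real.exp (-(45000 / 5300 * D / η)))) ≤ Real.exp (-((4 + 42 * η) * D)) / 2 := by
    have h1 : ((n : ℝ) + 1) ^ 5 ≤ Real.exp u := by
      calc ((n : ℝ) + 1) ^ 5 ≤ Real.exp (u / 100) ^ 5 := by gcongr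
        _ = Real.exp (5 * (u / 100)) := by rw [← Real.exp_nat_mul]; norm_num
        _ ≤ Real.exp u := Real.exp_le_exp.2 (by linarith)
    have h2 : Real.exp (-(45000 / 5300 * D / η)) ≤ Real.exp (-(80 * D)) := by
      apply Real.exp_le_exp.2
      rw [neg_le_neg_iff, le_div_iff₀ hη]
      nlinarith
    have h3 : (128 : ℝ) ≤ Real.exp u := by
      have := Real.add_one_le_exp (u / 2)
      have e : Real.exp u = Real.exp (u / 2) ^ 2 := by rw [← Real.exp_nat_mul]; congr 1; push_cast; ring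
      rw [e]
      nlinarith
    have h4 : Real.exp u * (Real.exp u * (Real.exp u * Real.exp (-(80 * D)))) ≤
        Real.exp (-((4 + 42 * η) * D)) := by
      rw [← Real.exp_add, ← Real.exp_add, ← Real.exp_add]
      apply Real.exp_le_exp.2
      rw [hu]
      nlinarith
    calc 4 * (Real.exp (5208 / 5300 * u) * (8 * (2 * ((n : ℝ) + 1) ^ 5) *
        Real.exp (-(45000 / 5300 * D / η))))
        ≤ 4 * (Real.exp u * (8 * (2 * Real.exp u) * Real.exp (-(80 * D)))) := by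
          gcongr
          linarith
      _ = 128 * (Real.exp u * (Real.exp u * Real.exp (-(80 * D)))) / 2 := by ring
      _ ≤ Real.exp u * (Real.exp u * (Real.exp u * Real.exp (-(80 * D)))) / 2 := by gcongr
      _ ≤ _ := by gcongr
  calc _ = 4 * (Real.exp (5208 / 5300 * u) * Real.exp (-(lam * D))) +
      4 * (Real.exp (5208 / 5300 * u) * (8 * (2 * ((n : ℝ) + 1) ^ 5) *
      Real.exp (-(45000 / 5300 * D / η)))) := by ring
    _ ≤ _ := by linarith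

end Vale.Agent.P321.H775
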