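import Vale.Agent.P321.R3.H101.Rel7

/-! # The chain in the shift variable and the gain of precision (step with four factors) -/

namespace Vale.Agent.P321.H775

open Complex Finset Vale.Agent.P321.UB Vale.Agent.P321.R3.H101

/-- One link: if `q * conj r` is close to one and `q` is close to one, so is `r`. -/
theorem link {q r : ℂ} {e d : ℝ} (he : ‖q - 1‖ ≤ e) (he1 : e ≤ 1 / 2)
    (h : ‖q * (starRingEnd ℂ) r - 1‖ ≤ d) : ‖r - 1‖ ≤ (e + d) * (1 + 2 * e) := by
  have he0 : 0 ≤ e := (norm_nonneg _).trans he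
  have hq : 1 - e ≤ ‖q‖ := by
    have h1 : ‖(1 : ℂ)‖ ≤ ‖q‖ + ‖q - 1‖ := by
      calc ‖(1 : ℂ)‖ = ‖q - (q - 1)‖ := by congr 1; ring
        _ ≤ ‖q‖ + ‖q - 1‖ := norm_sub_le _ _
    rw [norm_one] at h1
    linarith
  have h2 : ‖q‖ * ‖r - 1‖ ≤ e + d := by
    have e1 : q * (starRingEnd ℂ) (r - 1) = (q * (starRingEnd ℂ) r - 1) - (q - 1) := by
      rw [map_sub, map_one]; ring
    have e2 : ‖q‖ * ‖r - 1‖ = ‖q * (starRingEnd ℂ) (r - 1)‖ := by
      rw [norm_mul, RCLike.norm_conj]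
    rw [e2, e1]
    refine (norm_sub_le _ _).trans ?_
    linarith
  have h3 : (1 - e) * ‖r - 1‖ ≤ e + d :=
    (mul_le_mul_of_nonneg_right hq (norm_nonneg _)).trans h2
  have h4 : 1 ≤ (1 - e) * (1 + 2 * e) := by nlinarith
  have hr := norm_nonneg (r - 1)
  calc ‖r - 1‖ ≤ ((1 - e) * (1 + 2 * e)) * ‖r - 1‖ := le_mul_of_one_le_left hr h4
    _ = ((1 - e) * ‖r - 1‖) * (1 + 2 * e) := by ring
    _ ≤ (e + d) * (1 + 2 * e) := mul_le_mul_of_nonneg_right h3 (by linarith)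

/-- The chain of links. -/
theorem chain {q : ℕ → ℂ} {T : ℕ} {d : ℝ} (hd : 0 ≤ d) (hT : ((T : ℝ) + 1) ^ 2 * d ≤ 1 / 20)
    (h0 : ‖q 0 - 1‖ ≤ d)
    (h : ∀ t < T, ‖q t * (starRingEnd ℂ) (q (t + 1)) - 1‖ ≤ d) :
    ∀ t ≤ T, ‖q t - 1‖ ≤ 2 * (t + 1) * d := by
  intro t
  induction t with
  | zero =>
    intro _
    refine h0.trans ?_
    push_cast
    linarith
  | succ t ih =>
    intro ht
    have h1 := ih (by omega)
    have htT : (t : ℝ) + 1 ≤ T := by exact_mod_cast ht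
    have ht0 : (0 : ℝ) ≤ t := Nat.cast_nonneg t
    have hT1 : (1 : ℝ) ≤ (T : ℝ) + 1 := by linarith
    have hsq : ((t : ℝ) + 1) ^ 2 * d ≤ 1 / 20 := by
      refine le_trans ?_ hT
      gcongr
      linarith
    have hlin : ((t : ℝ) + 1) * d ≤ 1 / 20 := by
      refine le_trans ?_ hsq
      apply mul_le_mul_of_nonneg_right _ hd
      nlinarith
    have h2 := link h1 (by linarith) (h t (by omega))
    refine h2.trans ?_
    have hd1 : d ≤ 1 / 20 := by
      refine le_trans ?_ hlin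
      exact le_mul_of_one_le_left hd (by linarith)
    push_cast
    -- (2(t+1)d + d)(1+4(t+1)d) ≤ 2(t+2)d
    have e1 : (2 * ((t : ℝ) + 1) * d + d) * (1 + 2 * (2 * (t + 1) * d)) =
        2 * (t + 1) * d + d + (8 * ((t + 1) ^ 2 * d)) * d + 4 * ((t + 1) * d) * d := by ring
    rw [e1]
    have h3 : (8 * (((t : ℝ) + 1) ^ 2 * d)) * d ≤ (8 * (1 / 20)) * d := by gcongr
    have h4 : 4 * (((t : ℝ) + 1) * d) * d ≤ (4 * (1 / 20)) * d := by gcongr
    linarith

/-- Lower bound of an amplitude with the gain `m`. -/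
theorem amp {z z' : ℂ} {φ m Δ : ℝ} (h1 : Real.exp (-φ) ≤ ‖z - z'‖)
    (h2 : ‖z - z'‖ ≤ 4 * Real.exp (-m) * mx z z')
    (hq : |‖z‖ ^ 2 - ‖z'‖ ^ 2| ≤ Δ) (hΔ : 16 * Δ ≤ Real.exp (-φ) ^ 2) :
    Real.exp (-φ + m) / 8 ≤ ‖z‖ ∧ Real.exp (-φ + m) / 8 ≤ ‖z'‖ := by
  have h3 := low (Real.exp_pos _) h1 hq hΔ
  have h4 : Real.exp (-φ + m) / 4 ≤ mx z z' := by
    have h5 := h1.trans h2
    have h6 : Real.exp (-φ + m) = Real.exp (-φ) * Real.exp m := Real.exp_add _ _
    have h7 : Real.exp (-m) * Real.exp m = 1 := by rw [← Real.exp_add]; simp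
    rw [h6]
    calc Real.exp (-φ) * Real.exp m / 4 ≤ (4 * Real.exp (-m) * mx z z') * Real.exp m / 4 := by
          gcongr
      _ = (Real.exp (-m) * Real.exp m) * mx z z' := by ring
      _ = mx z z' := by rw [h7, one_mul]
  constructor <;> linarith

/-- The gain of precision from one scale to the next lower scale. -/
theorem boot {N tm : ℕ} {V V' U U' : ℕ → ℂ} {φ ψ : ℕ → ℝ} {h m g Δ : ℝ}
    (hΔ : 0 ≤ Δ) (hm : 0 ≤ m) (hg : 0 ≤ g) (hφ : ∀ j, 0 ≤ φ j)
    (hV : ∀ j < N, Real.exp (-(φ j)) ≤ ‖V j - V' j‖)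
    (hV2 : ∀ j < N, |‖V j‖ ^ 2 - ‖V' j‖ ^ 2| ≤ Δ)
    (hU : ∀ a < tm, Real.exp (-(ψ a)) ≤ ‖U a - U' a‖)
    (hex : ∀ t < tm, ∃ j, j + t < N ∧ φ j + φ (j + t) ≤ h)
    (h4 : ∀ t, t + 1 < tm → ∀ j j', j + t < N → j' + (t + 1) < N →
      ‖V (j + t) * (starRingEnd ℂ) (V j) *
          ((starRingEnd ℂ) (V (j' + (t + 1))) * V j') -
        V' (j + t) * (starRingEnd ℂ) (V' j) *
          ((starRingEnd ℂ) (V' (j' + (t + 1))) * V' j')‖ ≤ Δ)
    (h3 : ∀ a < tm, ∀ j, j + a < N →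
      ‖U a * V j * (starRingEnd ℂ) (V (j + a)) -
        U' a * V' j * (starRingEnd ℂ) (V' (j + a))‖ ≤ Δ)
    (hB : ∀ j < N, φ j ≤ h → ‖V j - V' j‖ ≤ 4 * Real.exp (-m) * mx (V j) (V' j))
    (hsmall : 10 ^ 5 * ((tm : ℝ) + 1) ^ 2 * Δ ≤ Real.exp (-(2 * h + g))) :
    ∀ a < tm, ψ a ≤ h →
      ‖U a - U' a‖ ≤ 4 * Real.exp (-(2 * m + g)) * mx (U a) (U' a) := by
  intro a ha hψa
  have htm1 : (1 : ℝ) ≤ (tm : ℝ) + 1 := by
    have : (0 : ℝ) ≤ tm := Nat.cast_nonneg _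
    linarith
  have htm2 : (1 : ℝ) ≤ ((tm : ℝ) + 1) ^ 2 := one_le_pow₀ htm1
  have hΔ1 : 10 ^ 5 * Δ ≤ Real.exp (-(2 * h + g)) := by
    refine le_trans ?_ hsmall
    have : 10 ^ 5 * Δ ≤ (10 ^ 5 * Δ) * ((tm : ℝ) + 1) ^ 2 :=
      le_mul_of_one_le_right (by positivity) htm2
    calc 10 ^ 5 * Δ ≤ (10 ^ 5 * Δ) * ((tm : ℝ) + 1) ^ 2 := this
      _ = _ := by ring
  choose! J hJ using hex
  -- amplitudes
  have hlow : ∀ j < N, φ j ≤ h → Real.exp (-φ j + m) / 8 ≤ ‖V j‖ ∧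
      Real.exp (-φ j + m) / 8 ≤ ‖V' j‖ := by
    intro j hj hjh
    refine amp (hV j hj) (hB j hj hjh) (hV2 j hj) ?_
    have h5 : Real.exp (-(2 * h + g)) ≤ Real.exp (-φ j) ^ 2 := by
      rw [← Real.exp_nat_mul]
      apply Real.exp_le_exp.2
      push_cast
      linarith
    linarith
  have hP : ∀ t < tm, Real.exp (-h + 2 * m) / 64 ≤ ‖V (J t + t) * (starRingEnd ℂ) (V (J t))‖ ∧
      Real.exp (-h + 2 * m) / 64 ≤ ‖V' (J t + t) * (starRingEnd ℂ) (V' (J t))‖ := by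
    intro t ht
    obtain ⟨k1, k2⟩ := hJ t ht
    have n1 := hφ (J t)
    have n2 := hφ (J t + t)
    have l1 := hlow (J t) (by omega) (by linarith)
    have l2 := hlow (J t + t) k1 (by linarith)
    have e1 : Real.exp (-h + 2 * m) / 64 ≤
        (Real.exp (-φ (J t + t) + m) / 8) * (Real.exp (-φ (J t) + m) / 8) := by
      have : Real.exp (-h + 2 * m) ≤ Real.exp (-φ (J t + t) + m) * Real.exp (-φ (J t) + m) := by
        rw [← Real.exp_add]
        apply Real.exp_le_exp.2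
        linarith
      calc Real.exp (-h + 2 * m) / 64 ≤
          Real.exp (-φ (J t + t) + m) * Real.exp (-φ (J t) + m) / 64 := by gcongr
        _ = _ := by ring
    rw [norm_mul, norm_mul, RCLike.norm_conj, RCLike.norm_conj]
    constructor
    · refine e1.trans ?_
      gcongr
      · exact l2.1
      · exact l1.1
    · refine e1.trans ?_
      gcongr
      · exact l2.2
      · exact l1.2
  set q : ℕ → ℂ := fun t => (V' (J t + t) * (starRingEnd ℂ) (V' (J t))) /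
    (V (J t + t) * (starRingEnd ℂ) (V (J t))) with hq
  set d : ℝ := 4096 * Δ * Real.exp (2 * h - 2 * m) with hd
  have hd0 : 0 ≤ d := by positivity
  have hdd : ((tm : ℝ) + 1) ^ 2 * d ≤ 1 / 20 * Real.exp (-(2 * m + g)) := by
    have e1 : Real.exp (-(2 * m + g)) = Real.exp (-(2 * h + g)) * Real.exp (2 * h - 2 * m) := by
      rw [← Real.exp_add]; congr 1; ring
    rw [e1, hd]
    have e2 : ((tm : ℝ) + 1) ^ 2 * (4096 * Δ * Real.exp (2 * h - 2 * m)) =
        4096 / 10 ^ 5 * (10 ^ 5 * ((tm : ℝ) + 1) ^ 2 * Δ) * Real.exp (2 * h - 2 * m) := by ring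
    rw [e2]
    have e3 : 4096 / 10 ^ 5 * (10 ^ 5 * ((tm : ℝ) + 1) ^ 2 * Δ) ≤
        1 / 20 * Real.exp (-(2 * h + g)) := by
      calc 4096 / 10 ^ 5 * (10 ^ 5 * ((tm : ℝ) + 1) ^ 2 * Δ) ≤
          4096 / 10 ^ 5 * Real.exp (-(2 * h + g)) := by gcongr
        _ ≤ _ := by
          have := Real.exp_pos (-(2 * h + g))
          nlinarith
    calc _ ≤ (1 / 20 * Real.exp (-(2 * h + g))) * Real.exp (2 * h - 2 * m) := by gcongr
      _ = _ := by ring
  have hexp1 : Real.exp (-(2 * m + g)) ≤ 1 := by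
    rw [Real.exp_le_one_iff]; linarith
  have hdd' : ((a : ℝ) + 1) ^ 2 * d ≤ 1 / 20 := by
    have haT : (a : ℝ) + 1 ≤ (tm : ℝ) + 1 := by
      have : (a : ℝ) ≤ tm := by exact_mod_cast ha.le
      linarith
    have : ((a : ℝ) + 1) ^ 2 * d ≤ ((tm : ℝ) + 1) ^ 2 * d := by gcongr
    linarith
  have hPne : ∀ t < tm, V (J t + t) * (starRingEnd ℂ) (V (J t)) ≠ 0 := by
    intro t ht hz
    have := (hP t ht).1
    rw [hz, norm_zero] at this
    have := Real.exp_pos (-h + 2 * m)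
    linarith
  -- start of the chain
  have h00 : ‖q 0 - 1‖ ≤ d := by
    have h0 : 0 < tm := by omega
    obtain ⟨k1, k2⟩ := hJ 0 h0
    simp only [add_zero] at k1 k2
    have l1 := hlow (J 0) k1 (by have := hφ (J 0); linarith)
    have hne := hPne 0 h0
    simp only [add_zero] at hne
    have e1 : q 0 - 1 = (V' (J 0) * (starRingEnd ℂ) (V' (J 0)) -
        V (J 0) * (starRingEnd ℂ) (V (J 0))) / (V (J 0) * (starRingEnd ℂ) (V (J 0))) := by
      simp only [hq, add_zero]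
      rw [div_sub_one hne]
    rw [e1, norm_div, div_le_iff₀ (norm_pos_iff.2 hne)]
    have e2 : ‖V' (J 0) * (starRingEnd ℂ) (V' (J 0)) - V (J 0) * (starRingEnd ℂ) (V (J 0))‖ ≤
        Δ := by
      rw [Complex.mul_conj, Complex.mul_conj, Complex.normSq_eq_norm_sq,
        Complex.normSq_eq_norm_sq, ← Complex.ofReal_sub, Complex.norm_real, Real.norm_eq_abs,
        abs_sub_comm]
      exact hV2 _ k1
    refine e2.trans ?_
    have e3 : Real.exp (-h + 2 * m) / 64 ≤ ‖V (J 0) * (starRingEnd ℂ) (V (J 0))‖ := by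
      have := (hP 0 h0).1
      simpa only [add_zero] using this
    have e4 : Δ ≤ d * (Real.exp (-h + 2 * m) / 64) := by
      have e5 : d * (Real.exp (-h + 2 * m) / 64) = 64 * Real.exp h * Δ := by
        rw [hd]
        have : Real.exp (2 * h - 2 * m) * Real.exp (-h + 2 * m) = Real.exp h := by
          rw [← Real.exp_add]; congr 1; ring
        calc _ = 64 * Δ * (Real.exp (2 * h - 2 * m) * Real.exp (-h + 2 * m)) := by ring
          _ = _ := by rw [this]; ring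
      rw [e5]
      have hh : 0 ≤ h := by have := hφ (J 0); linarith
      have : 1 ≤ Real.exp h := Real.one_le_exp hh
      nlinarith
    exact e4.trans (mul_le_mul_of_nonneg_left e3 hd0)
  -- the links
  have hlink : ∀ t < a, ‖q t * (starRingEnd ℂ) (q (t + 1)) - 1‖ ≤ d := by
    intro t ht
    have ht1 : t < tm := by omega
    have ht2 : t + 1 < tm := by omega
    obtain ⟨k1, -⟩ := hJ t ht1
    obtain ⟨k2, -⟩ := hJ (t + 1) ht2
    have hr := h4 t ht2 (J t) (J (t + 1)) k1 k2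
    have p1 := hP t ht1
    have p2 := hP (t + 1) ht2
    have n1 := hPne t ht1
    have n2 := hPne (t + 1) ht2
    set P := V (J t + t) * (starRingEnd ℂ) (V (J t)) with hPd
    set P' := V' (J t + t) * (starRingEnd ℂ) (V' (J t)) with hPd'
    set R := V (J (t + 1) + (t + 1)) * (starRingEnd ℂ) (V (J (t + 1))) with hRd
    set R' := V' (J (t + 1) + (t + 1)) * (starRingEnd ℂ) (V' (J (t + 1))) with hRd'
    have c1 : (starRingEnd ℂ) (V (J (t + 1) + (t + 1))) * V (J (t + 1)) = (starRingEnd ℂ) R := by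
      rw [hRd, map_mul, Complex.conj_conj]
    have c2 : (starRingEnd ℂ) (V' (J (t + 1) + (t + 1))) * V' (J (t + 1)) =
        (starRingEnd ℂ) R' := by
      rw [hRd', map_mul, Complex.conj_conj]
    rw [c1, c2] at hr
    have n2' : (starRingEnd ℂ) R ≠ 0 := by simpa using n2
    have e1 : q t * (starRingEnd ℂ) (q (t + 1)) - 1 =
        (P' * (starRingEnd ℂ) R' - P * (starRingEnd ℂ) R) / (P * (starRingEnd ℂ) R) := by
      have a1 : q t = P' / P := rfl
      have a2 : q (t + 1) = R' / R := rfl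
      rw [a1, a2, map_div₀]
      field_simp
    rw [e1, norm_div, div_le_iff₀ (norm_pos_iff.2 (mul_ne_zero n1 n2')), norm_sub_rev]
    refine hr.trans ?_
    rw [norm_mul, RCLike.norm_conj]
    have e2 : (Real.exp (-h + 2 * m) / 64) * (Real.exp (-h + 2 * m) / 64) ≤ ‖P‖ * ‖R‖ := by
      gcongr
      · exact p1.1
      · exact p2.1
    have e3 : Δ ≤ d * ((Real.exp (-h + 2 * m) / 64) * (Real.exp (-h + 2 * m) / 64)) := by
      have e5 : d * ((Real.exp (-h + 2 * m) / 64) * (Real.exp (-h + 2 * m) / 64)) =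
          Real.exp (2 * m) * Δ := by
        rw [hd]
        have : Real.exp (2 * h - 2 * m) * (Real.exp (-h + 2 * m) * Real.exp (-h + 2 * m)) =
            Real.exp (2 * m) := by
          rw [← Real.exp_add, ← Real.exp_add]; congr 1; ring
        calc _ = Δ * (Real.exp (2 * h - 2 * m) *
              (Real.exp (-h + 2 * m) * Real.exp (-h + 2 * m))) := by ring
          _ = _ := by rw [this]; ring
      rw [e5]
      have : 1 ≤ Real.exp (2 * m) := Real.one_le_exp (by linarith)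
      nlinarith
    exact e3.trans (mul_le_mul_of_nonneg_left e2 hd0)
  have hqa := chain hd0 hdd' h00 hlink a le_rfl
  -- the triple
  obtain ⟨k1, k2⟩ := hJ a ha
  have hr := h3 a ha (J a) k1
  have p1 := hP a ha
  have n1 := hPne a ha
  set P := V (J a + a) * (starRingEnd ℂ) (V (J a)) with hPd
  set P' := V' (J a + a) * (starRingEnd ℂ) (V' (J a)) with hPd'
  have c1 : U a * V (J a) * (starRingEnd ℂ) (V (J a + a)) = U a * (starRingEnd ℂ) P := by
    rw [hPd, map_mul, Complex.conj_conj]; ring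
  have c2 : U' a * V' (J a) * (starRingEnd ℂ) (V' (J a + a)) = U' a * (starRingEnd ℂ) P' := by
    rw [hPd', map_mul, Complex.conj_conj]; ring
  rw [c1, c2] at hr
  have n1' : (starRingEnd ℂ) P ≠ 0 := by simpa using n1
  have hqP : q a * P = P' := by
    have a1 : q a = P' / P := rfl
    rw [a1, div_mul_cancel₀ _ n1]
  clear_value P P'
  have hmx := mx_ge (hU a ha)
  have hmx0 : Real.exp (-h) / 2 ≤ mx (U a) (U' a) := by
    refine le_trans ?_ hmx
    have : Real.exp (-h) ≤ Real.exp (-(ψ a)) := Real.exp_le_exp.2 (by linarith)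
    linarith
  have hmx1 : 0 ≤ mx (U a) (U' a) := le_max_of_le_left (norm_nonneg _)
  have hmain : ‖U a - U' a‖ * ‖P‖ ≤ (2 * ((a : ℝ) + 1) * d * mx (U a) (U' a)) * ‖P‖ + Δ := by
    have e1 : (U a - U' a) * (starRingEnd ℂ) P =
        (U a * (starRingEnd ℂ) P - U' a * (starRingEnd ℂ) P') +
          U' a * (starRingEnd ℂ) ((q a - 1) * P) := by
      rw [sub_mul (q a), hqP, one_mul, map_sub]
      ring
    have e2 : ‖U a - U' a‖ * ‖P‖ = ‖(U a - U' a) * (starRingEnd ℂ) P‖ := by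
      rw [norm_mul, RCLike.norm_conj]
    rw [e2, e1]
    refine (norm_add_le _ _).trans ?_
    rw [norm_mul, RCLike.norm_conj, norm_mul]
    have e3 : ‖U' a‖ ≤ mx (U a) (U' a) := le_max_right _ _
    have e4 : ‖U' a‖ * (‖q a - 1‖ * ‖P‖) ≤
        mx (U a) (U' a) * ((2 * ((a : ℝ) + 1) * d) * ‖P‖) := by
      have : (0 : ℝ) ≤ 2 * ((a : ℝ) + 1) * d := by positivity
      gcongr
    calc _ ≤ Δ + mx (U a) (U' a) * ((2 * ((a : ℝ) + 1) * d) * ‖P‖) := add_le_add hr e4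
      _ = _ := by ring
  have hPpos : 0 < ‖P‖ := norm_pos_iff.2 n1
  have hΔP : Δ ≤ (d * mx (U a) (U' a)) * ‖P‖ := by
    have e1 : Δ ≤ (d * (Real.exp (-h) / 2)) * (Real.exp (-h + 2 * m) / 64) := by
      have e5 : (d * (Real.exp (-h) / 2)) * (Real.exp (-h + 2 * m) / 64) = 32 * Δ := by
        rw [hd]
        have : Real.exp (2 * h - 2 * m) * (Real.exp (-h) * Real.exp (-h + 2 * m)) = 1 := by
          rw [← Real.exp_add, ← Real.exp_add]
          rw [Real.exp_eq_one_iff]; ring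
        calc _ = 32 * Δ * (Real.exp (2 * h - 2 * m) * (Real.exp (-h) * Real.exp (-h + 2 * m))) := by
              ring
          _ = _ := by rw [this, mul_one]
      rw [e5]
      linarith
    exact e1.trans (mul_le_mul (mul_le_mul_of_nonneg_left hmx0 hd0) p1.1 (by positivity)
      (by positivity))
  have hfin : ‖U a - U' a‖ * ‖P‖ ≤ ((2 * (a : ℝ) + 3) * d * mx (U a) (U' a)) * ‖P‖ := by
    refine hmain.trans ?_
    have : ((2 * (a : ℝ) + 3) * d * mx (U a) (U' a)) * ‖P‖ =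
        (2 * ((a : ℝ) + 1) * d * mx (U a) (U' a)) * ‖P‖ + (d * mx (U a) (U' a)) * ‖P‖ := by ring
    rw [this]
    linarith
  have hfin2 := le_of_mul_le_mul_right hfin hPpos
  refine hfin2.trans ?_
  apply mul_le_mul_of_nonneg_right _ hmx1
  have haT : (a : ℝ) + 1 ≤ tm := by exact_mod_cast ha
  have e6 : (2 * (a : ℝ) + 3) * d ≤ 80 * (((tm : ℝ) + 1) ^ 2 * d) := by
    have : (2 * (a : ℝ) + 3) ≤ 80 * ((tm : ℝ) + 1) ^ 2 := by nlinarith
    calc (2 * (a : ℝ) + 3) * d ≤ (80 * ((tm : ℝ) + 1) ^ 2) * d := by gcongr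
      _ = _ := by ring
  linarith

end Vale.Agent.P321.H775
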