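import Vale.Agent.P321.H775.StepQn
import Vale.Agent.P321.H852.Level
import Vale.Agent.P321.H678.LocQ
import Vale.Agent.P321.H778.FinalQ

/-! # Assembly: the upper bound with exponent `2 + ε` -/

namespace Vale.Agent.P321.H775

open Complex Finset Vale.Agent.P321.UB Vale.Agent.P321.R2.H613 Vale.Agent.P321.H678
  Vale.Agent.P321.R3.H101
open scoped unitInterval ENNReal

/-- The level lemma in the form used by the step. -/
theorem levelQ {η : ℝ} (hη : 0 < η) (hη1 : η ≤ 1 / 10) : LevelQ η (10 ^ 6 / η) := by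
  intro n i1 N f f' D κj κ θ T β s0 hβ hT _ _ hreal hreal' hf hf' heq hn hD hκ hκκ hκj hθ hκθ
    hN1 hN2 hs0 hs0i hs
  have hT' : β / 2 + 2 / η ≤ T := by
    have h1 : 10 / η = 5 * (2 / η) := by ring
    have h2 : 0 < 2 / η := by positivity
    linarith
  have hD0 : 0 < D := lt_of_lt_of_le (by positivity) hD
  have hκj0 : 0 < κj := lt_of_lt_of_le (by positivity) hκκ
  obtain ⟨φ, x, h1, h2, h3, a, ha, h4⟩ := H852.level_q hη hη1 hT' hreal hreal' hf hf' heq hn hD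
    hκ hκκ hκj hθ hκθ hN1 hN2 hs0 hs0i hs
  have hηD : 0 < η * D := by positivity
  refine ⟨φ, x, h1, h2, ?_, a, ha, ?_⟩
  · intro t ht
    have h5 : (t : ℝ) * κ ≤ η / 5 * κj := by
      refine ht.trans (mul_le_mul_of_nonneg_right ?_ hκj0.le)
      linarith
    obtain ⟨i, h6, h7⟩ := h3 t h5
    refine ⟨i, h6, h7.trans ?_⟩
    nlinarith
  · refine h4.trans ?_
    nlinarith

/-- The local step of factor `4 + ε`. -/
theorem stepQ_all (ε : ℝ) (hε : 0 < ε) : ∃ lam β Y V E K : ℝ, ∃ S : ℕ,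
    H778.StepQ lam β Y V E K S ∧ 4 ≤ lam ∧ lam ≤ 4 + ε ∧ 1 ≤ β ∧ 1 ≤ Y ∧ 1 ≤ K ∧ 10 ≤ V ∧
      0 < E := by
  obtain ⟨η, hη, hη1, hηε⟩ : ∃ η : ℝ, 0 < η ∧ η ≤ 1 / 10 ∧ 50 * η < ε := by
    refine ⟨min (1 / 10) (ε / 100), by positivity, min_le_left _ _, ?_⟩
    have := min_le_right (1 / 10 : ℝ) (ε / 100)
    linarith
  obtain ⟨S, hS⟩ : ∃ S : ℕ, 1 + 3 / η ≤ 2 ^ S := by
    obtain ⟨S, hS⟩ := pow_unbounded_of_one_lt (1 + 3 / η) (by norm_num : (1 : ℝ) < 2)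
    exact ⟨S, hS.le⟩
  have hη2 : 0 < η ^ 2 := by positivity
  have hη3 : η ^ 2 ≤ 1 := by nlinarith
  set V' : ℝ := 10 ^ 6 / η + 30000 / η ^ 2 with hV'
  have hV1 : 10 ^ 6 / η ≤ V' := by
    have : 0 < 30000 / η ^ 2 := by positivity
    linarith
  have hV2 : 30000 / η ^ 2 ≤ V' := by
    have : 0 < 10 ^ 6 / η := by positivity
    linarith
  have h1 := stepQn_of hη hη1 (levelQ hη hη1) hS hV1 hV2
  have hV10 : 10 ≤ V' := by
    refine le_trans ?_ hV1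
    rw [le_div_iff₀ hη]; linarith
  have hK1 : 1 ≤ 700 / η ^ 2 := by rw [le_div_iff₀ hη2]; linarith
  obtain ⟨E', hE', h2⟩ := stepQ_local (by positivity)
    (show 4 + 50 * η < 4 + ε by linarith) (by positivity) hV10 hK1 h1
  refine ⟨4 + ε, 13 / η, 80 / η, V', E', 700 / η ^ 2, S, ?_, by linarith, le_rfl, ?_, ?_, hK1,
    hV10, lt_of_lt_of_le (by positivity) hE'⟩
  · intro n i1 f f' D κ0 κ s0 hi hreal hreal' hE hf heq hκ hV hV0 hs
    obtain ⟨g, g', F, F', h3, h4, h5⟩ := h2 n i1 f f' D κ0 κ s0 hi (fun j _ => hreal j)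
      (fun j _ => hreal' j) hE (fun j hj i hi => (hf j hj i hi).1)
      (fun j hj i hi => (hf j hj i hi).2) heq hκ hV hV0 (fun j hj => (hs j hj).1)
      (fun j hj => (hs j hj).2.1) (fun j hj => (hs j hj).2.2)
    exact ⟨g, g', F, F', h3, h4, h5⟩
  · rw [le_div_iff₀ hη]; linarith
  · rw [le_div_iff₀ hη]; linarith

/-- **The upper bound with every exponent above two.** -/
theorem upper_two {α : ℝ} (hα : 2 < α) :
    ∃ C : ℝ, 0 < C ∧ ∀ q : I, (q : ℝ) < 1 → ∀ n : ℕ, 2 ≤ n →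
      T q n ≤ (⌊Real.exp (C / (1 - q) * (Real.log n) ^ α)⌋₊ : ℕ∞) :=
  H778.final_two stepQ_all hα

end Vale.Agent.P321.H775
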