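import Vale.Agent.P321.H775.Asm

/-! # The step with four factors from the level lemma -/

namespace Vale.Agent.P321.H775

open Complex Finset Vale.Agent.P321.UB Vale.Agent.P321.R2.H613 Vale.Agent.P321.H678
  Vale.Agent.P321.R3.H101

/-- The smallness condition of the chain. -/
theorem small_aux {η D : ℝ} (hu8 : 10 ^ 8 ≤ η * D) {N' : ℕ}
    (hNexp : (N' : ℝ) ≤ Real.exp (η * D / 10 ^ 8)) :
    10 ^ 5 * ((N' : ℝ) + 1) ^ 2 * Real.exp (-((4 + 42 * η) * D)) ≤
      Real.exp (-(2 * ((2 + 20 * η) * D) + η * D)) := by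
  set u : ℝ := η * D with hu
  have h1 : (1 : ℝ) ≤ Real.exp (u / 10 ^ 8) := Real.one_le_exp (by linarith)
  have h2 : ((N' : ℝ) + 1) ^ 2 ≤ 4 * Real.exp (u / 10 ^ 7) := by
    have h3 : (N' : ℝ) + 1 ≤ 2 * Real.exp (u / 10 ^ 8) := by linarith
    calc ((N' : ℝ) + 1) ^ 2 ≤ (2 * Real.exp (u / 10 ^ 8)) ^ 2 := by gcongr
      _ = 4 * Real.exp (2 * (u / 10 ^ 8)) := by
        rw [mul_pow, ← Real.exp_nat_mul]; norm_num
      _ ≤ 4 * Real.exp (u / 10 ^ 7) := by
        gcongr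
        linarith
  have h5 : (400000 : ℝ) ≤ Real.exp (u / 2) := by
    have := Real.add_one_le_exp (u / 2); linarith
  have e1 : Real.exp (-(2 * ((2 + 20 * η) * D) + u)) =
      Real.exp (-((4 + 42 * η) * D)) * Real.exp u := by
    rw [← Real.exp_add]
    congr 1
    rw [hu]; ring
  rw [e1]
  have hΔ0 : 0 < Real.exp (-((4 + 42 * η) * D)) := Real.exp_pos _
  calc 10 ^ 5 * ((N' : ℝ) + 1) ^ 2 * Real.exp (-((4 + 42 * η) * D))
      ≤ 10 ^ 5 * (4 * Real.exp (u / 10 ^ 7)) * Real.exp (-((4 + 42 * η) * D)) := by gcongr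
    _ = Real.exp (-((4 + 42 * η) * D)) * (400000 * Real.exp (u / 10 ^ 7)) := by ring
    _ ≤ Real.exp (-((4 + 42 * η) * D)) * (Real.exp (u / 2) * Real.exp (u / 10 ^ 7)) := by
        gcongr
    _ ≤ Real.exp (-((4 + 42 * η) * D)) * Real.exp u := by
      rw [← Real.exp_add]
      gcongr
      linarith

/-- One doubling step between two scales. -/
theorem step_scale {S n i1 : ℕ} {f f' : ℕ → ℕ → ℂ} {θ κ X η D : ℝ}
    (hi : i1 ≤ n) (hX0 : 0 ≤ X) (hκ : 0 < κ)
    (hreal : ∀ j ≤ S, ∀ i, (starRingEnd ℂ) (f j i) = f j i)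
    (hreal' : ∀ j ≤ S, ∀ i, (starRingEnd ℂ) (f' j i) = f' j i) (hu8 : 10 ^ 8 ≤ η * D)
    (hR : RelQ S n i1 f f' θ κ X (Real.exp (-((4 + 42 * η) * D)))) {j : ℕ} (hj : j + 1 ≤ S)
    {N N' : ℕ} {x x' φ φ' : ℕ → ℝ} (hφ0 : ∀ i, 0 ≤ φ i)
    (hx : ∀ i < N, i * κ ≤ x i ∧ x i ≤ (i + 1) * κ ∧
      Real.exp (-(φ i)) ≤ ‖VV n i1 θ κ (f j) (x i) - VV n i1 θ κ (f' j) (x i)‖)
    (hx' : ∀ i < N', i * κ ≤ x' i ∧ x' i ≤ (i + 1) * κ ∧
      Real.exp (-(φ' i)) ≤ ‖VV n i1 θ κ (f (j + 1)) (x' i) - VV n i1 θ κ (f' (j + 1)) (x' i)‖)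
    (hxX : ∀ i < N, |x i| ≤ X) (hxX' : ∀ i < N', |x' i| ≤ X)
    (hshift : ∀ t < N', ∃ i, i + t < N ∧ φ i + φ (i + t) ≤ (2 + 20 * η) * D)
    (hNexp : (N' : ℝ) ≤ Real.exp (η * D / 10 ^ 8)) {M : ℝ} (hM : 0 ≤ M)
    (ih : ∀ i < N, φ i ≤ (2 + 20 * η) * D →
      ‖VV n i1 θ κ (f j) (x i) - VV n i1 θ κ (f' j) (x i)‖ ≤
        4 * Real.exp (-M) * mx (VV n i1 θ κ (f j) (x i)) (VV n i1 θ κ (f' j) (x i))) :
    ∀ i < N', φ' i ≤ (2 + 20 * η) * D →
      ‖VV n i1 θ κ (f (j + 1)) (x' i) - VV n i1 θ κ (f' (j + 1)) (x' i)‖ ≤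
        4 * Real.exp (-(2 * M + η * D)) *
          mx (VV n i1 θ κ (f (j + 1)) (x' i)) (VV n i1 θ κ (f' (j + 1)) (x' i)) := by
  have hj' : j ≤ S := by omega
  have h4 : ∀ t, t + 1 < N' → ∀ i i', i + t < N → i' + (t + 1) < N →
      ‖VV n i1 θ κ (f j) (x (i + t)) * (starRingEnd ℂ) (VV n i1 θ κ (f j) (x i)) *
          ((starRingEnd ℂ) (VV n i1 θ κ (f j) (x (i' + (t + 1)))) * VV n i1 θ κ (f j) (x i')) -
        VV n i1 θ κ (f' j) (x (i + t)) * (starRingEnd ℂ) (VV n i1 θ κ (f' j) (x i)) *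
          ((starRingEnd ℂ) (VV n i1 θ κ (f' j) (x (i' + (t + 1)))) *
            VV n i1 θ κ (f' j) (x i'))‖ ≤ Real.exp (-((4 + 42 * η) * D)) := by
    intro t _ i i' h1 h2
    have a1 := hx (i + t) h1
    have a2 := hx i (by omega)
    have a3 := hx (i' + (t + 1)) h2
    have a4 := hx i' (by omega)
    refine hR.four hreal hreal' hj' (hxX _ h1) (hxX i (by omega)) (hxX _ h2)
      (hxX i' (by omega)) ?_
    obtain ⟨b1, c1, -⟩ := a1
    obtain ⟨b2, c2, -⟩ := a2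
    obtain ⟨b3, c3, -⟩ := a3
    obtain ⟨b4, c4, -⟩ := a4
    push_cast at b1 c1 b2 c2 b3 c3 b4 c4
    rw [abs_le]
    constructor <;> linarith
  have h3 : ∀ a < N', ∀ i, i + a < N →
      ‖VV n i1 θ κ (f (j + 1)) (x' a) * VV n i1 θ κ (f j) (x i) *
          (starRingEnd ℂ) (VV n i1 θ κ (f j) (x (i + a))) -
        VV n i1 θ κ (f' (j + 1)) (x' a) * VV n i1 θ κ (f' j) (x i) *
          (starRingEnd ℂ) (VV n i1 θ κ (f' j) (x (i + a)))‖ ≤
        Real.exp (-((4 + 42 * η) * D)) := by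
    intro a ha i h1
    have a1 := hx' a ha
    have a2 := hx i (by omega)
    have a3 := hx (i + a) h1
    refine hR.three hi hX0 hreal hreal' hj' hj (hxX' a ha) (hxX i (by omega)) (hxX _ h1) ?_
    obtain ⟨b1, c1, -⟩ := a1
    obtain ⟨b2, c2, -⟩ := a2
    obtain ⟨b3, c3, -⟩ := a3
    push_cast at b1 c1 b2 c2 b3 c3
    rw [abs_le]
    constructor <;> linarith
  have h2 : ∀ i < N, |‖VV n i1 θ κ (f j) (x i)‖ ^ 2 - ‖VV n i1 θ κ (f' j) (x i)‖ ^ 2| ≤
      Real.exp (-((4 + 42 * η) * D)) := fun i hiN =>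
    hR.sq hi hX0 hκ hreal hreal' hj' (hxX i hiN)
  exact boot (V := fun i => VV n i1 θ κ (f j) (x i)) (V' := fun i => VV n i1 θ κ (f' j) (x i))
    (U := fun i => VV n i1 θ κ (f (j + 1)) (x' i))
    (U' := fun i => VV n i1 θ κ (f' (j + 1)) (x' i))
    (Real.exp_pos _).le hM (by linarith) hφ0 (fun i hiN => (hx i hiN).2.2) h2
    (fun i hiN => (hx' i hiN).2.2) hshift h4 h3 ih (small_aux hu8 hNexp)

/-- The final contradiction. -/
theorem final_aux {η D : ℝ} (hη : 0 < η) (hη1 : η ≤ 1 / 10) (hu8 : 10 ^ 8 ≤ η * D)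
    (hD0 : 0 < D) {S : ℕ} (hS : 1 + 3 / η ≤ 2 ^ S) {φ A m : ℝ}
    (hφ : φ ≤ (1 + 10 * η) * D)
    (h1 : A ≤ 4 * Real.exp (-((2 ^ S - 1) * (η * D))) * m) (h2 : Real.exp (-φ) ≤ A)
    (hm : m ≤ Real.exp (η * D)) (hm0 : 0 ≤ m) : False := by
  have h5 : Real.exp (-((1 + 10 * η) * D)) ≤ 4 * Real.exp (-(3 * D)) * Real.exp (η * D) := by
    have h6 : Real.exp (-((1 + 10 * η) * D)) ≤ Real.exp (-φ) :=
      Real.exp_le_exp.2 (by linarith)
    refine h6.trans (h2.trans (h1.trans ?_))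
    have h7 : Real.exp (-((2 ^ S - 1) * (η * D))) ≤ Real.exp (-(3 * D)) := by
      apply Real.exp_le_exp.2
      have h8 : 3 / η ≤ 2 ^ S - 1 := by linarith
      have h9 : 3 / η * (η * D) ≤ (2 ^ S - 1) * (η * D) :=
        mul_le_mul_of_nonneg_right h8 (by linarith)
      have e : 3 / η * (η * D) = 3 * D := by field_simp
      linarith
    gcongr
  have h6 : Real.exp (3 * D) ≤ 4 * Real.exp ((1 + 10 * η) * D) * Real.exp (η * D) := by
    have e1 : Real.exp (-((1 + 10 * η) * D)) * (Real.exp ((1 + 10 * η) * D) * Real.exp (3 * D)) =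
        Real.exp (3 * D) := by
      rw [← Real.exp_add, ← Real.exp_add]; congr 1; ring
    have e2 : 4 * Real.exp (-(3 * D)) * Real.exp (η * D) *
        (Real.exp ((1 + 10 * η) * D) * Real.exp (3 * D)) =
        4 * Real.exp ((1 + 10 * η) * D) * Real.exp (η * D) := by
      have : Real.exp (-(3 * D)) * Real.exp (3 * D) = 1 := by
        rw [← Real.exp_add]; simp
      calc _ = (Real.exp (-(3 * D)) * Real.exp (3 * D)) *
            (4 * Real.exp ((1 + 10 * η) * D) * Real.exp (η * D)) := by ring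
        _ = _ := by rw [this, one_mul]
    rw [← e1, ← e2]
    exact mul_le_mul_of_nonneg_right h5 (by positivity)
  have h7 : 4 * Real.exp ((1 + 10 * η) * D) * Real.exp (η * D) < Real.exp (3 * D) := by
    have h8 : (4 : ℝ) < Real.exp (η * D) := by
      have := Real.add_one_le_exp (η * D); linarith
    calc 4 * Real.exp ((1 + 10 * η) * D) * Real.exp (η * D)
        < Real.exp (η * D) * Real.exp ((1 + 10 * η) * D) * Real.exp (η * D) := by
          have := Real.exp_pos ((1 + 10 * η) * D)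
          have := Real.exp_pos (η * D)
          gcongr
      _ = Real.exp (η * D + (1 + 10 * η) * D + η * D) := by rw [Real.exp_add, Real.exp_add]
      _ ≤ Real.exp (3 * D) := by
        apply Real.exp_le_exp.2
        nlinarith
  linarith

/-- The step with four factors. -/
theorem stepQn_of {η V : ℝ} (hη : 0 < η) (hη1 : η ≤ 1 / 10) (hL : LevelQ η V) {S : ℕ}
    (hS : 1 + 3 / η ≤ 2 ^ S) {V' : ℝ} (hV1 : V ≤ V') (hV2 : 30000 / η ^ 2 ≤ V') :
    StepQn (4 + 50 * η) (13 / η) (80 / η) V' (10 ^ 8 / η) (700 / η ^ 2) S := by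
  intro n i1 f f' D κ0 κ s0 hi hreal hreal' hE hf hf' heq hn hκl hVκ hVκ0 hre him hs
  by_contra hcon
  have hη0 : η ≠ 0 := hη.ne'
  have hη2 : 0 < η ^ 2 := by positivity
  set u : ℝ := η * D with hu
  have hu8 : 10 ^ 8 ≤ u := by
    rw [div_le_iff₀ hη] at hE
    rw [hu]; linarith
  have hD0 : 0 < D := by
    by_contra h
    push Not at h
    nlinarith
  have hDE : D / (10 ^ 8 / η) = u / 10 ^ 8 := by rw [hu]; field_simp
  rw [hDE] at hn hκl
  have hκ : 0 < κ := lt_of_lt_of_le (Real.exp_pos _) hκl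
  have hV'0 : 0 < V' := lt_of_lt_of_le (by positivity) hV2
  set K : ℝ := 700 / η ^ 2 with hK
  have hK1 : 1 ≤ K := by
    rw [hK, le_div_iff₀ hη2]; nlinarith
  have hK0 : 0 < K := by linarith
  set κj : ℕ → ℝ := fun j => κ0 / K ^ j with hκj
  have hκ0S : V' * κ ≤ κ0 / K ^ S := hVκ
  have hκ0pos : 0 < κ0 := by
    have : 0 < κ0 / K ^ S := lt_of_lt_of_le (by positivity) hκ0S
    by_contra h
    push Not at h
    have h2 : κ0 / K ^ S ≤ 0 := div_nonpos_of_nonpos_of_nonneg h (by positivity)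
    linarith
  have hκj0 : ∀ j, 0 < κj j := fun j => by simp only [hκj]; positivity
  have hκjle : ∀ j, κj j ≤ κ0 := fun j => by
    simp only [hκj]
    exact div_le_self hκ0pos.le (one_le_pow₀ hK1)
  have hκjge : ∀ j ≤ S, V' * κ ≤ κj j := fun j hj => by
    refine hκ0S.trans ?_
    simp only [hκj]
    apply div_le_div_of_nonneg_left hκ0pos.le (by positivity)
    exact pow_le_pow_right₀ hK1 hj
  have hκjs : ∀ j, κj (j + 1) = κj j / K := fun j => by
    simp only [hκj, pow_succ]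
    field_simp
  -- the width of the window
  obtain ⟨θ, hθ, hκθ⟩ : ∃ θ : ℝ, 0 < θ ∧ κ ^ 2 * θ ^ 2 = η * D / 5300 := by
    refine ⟨Real.sqrt (η * D / 5300) / κ, by positivity, ?_⟩
    rw [div_pow, Real.sq_sqrt (by positivity)]
    field_simp
  set T : ℝ := 23 / η with hT
  have hT0 : 0 < T := by positivity
  have hT1 : 1 ≤ T := by rw [hT, le_div_iff₀ hη]; linarith
  have hTκ0 : T * κ0 ≤ η / 1000 := by
    have h1 : (30000 / η ^ 2) * κ0 ≤ 1 := (mul_le_mul_of_nonneg_right hV2 hκ0pos.le).trans hVκ0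
    have h2 : 30000 * κ0 ≤ η ^ 2 := by
      rw [div_mul_eq_mul_div, div_le_one hη2] at h1
      exact h1
    rw [hT, div_mul_eq_mul_div, div_le_iff₀ hη]
    nlinarith
  have hV'κ : ∀ j ≤ S, 30000 / η ^ 2 * κ ≤ κj j := fun j hj =>
    (mul_le_mul_of_nonneg_right hV2 hκ.le).trans (hκjge j hj)
  have hκκj : ∀ j ≤ S, κ ≤ κj j := fun j hj => by
    refine le_trans ?_ (hV'κ j hj)
    have : 1 ≤ 30000 / η ^ 2 := by rw [le_div_iff₀ hη2]; nlinarith
    exact le_mul_of_one_le_left hκ.le this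
  set N : ℕ → ℕ := fun j => ⌈2 * T * κj j / κ⌉₊ with hN
  have hN1 : ∀ j, 2 * T * κj j ≤ N j * κ := fun j => by
    have := Nat.le_ceil (2 * T * κj j / κ)
    rw [div_le_iff₀ hκ] at this
    exact this
  have hN2 : ∀ j ≤ S, N j * κ ≤ 3 * T * κj j := fun j hj => by
    have h1 := Nat.ceil_lt_add_one (a := 2 * T * κj j / κ)
      (by have := hκj0 j; positivity)
    have h2 : (N j : ℝ) * κ ≤ (2 * T * κj j / κ + 1) * κ :=
      mul_le_mul_of_nonneg_right h1.le hκ.le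
    have h3 : (2 * T * κj j / κ + 1) * κ = 2 * T * κj j + κ := by field_simp
    have h4 : κ ≤ T * κj j := (hκκj j hj).trans (le_mul_of_one_le_left (hκj0 j).le hT1)
    linarith
  have hn' : (n : ℝ) + 1 ≤ Real.exp (η * D / 100) :=
    hn.trans (Real.exp_le_exp.2 (by rw [← hu]; linarith))
  have hD100 : 100 / η ≤ D := by
    rw [div_le_iff₀ hη]; rw [hu] at hu8; linarith
  -- the level lemma
  have hlev : ∀ j ≤ S, ∃ φ x : ℕ → ℝ, (∀ i, 0 ≤ φ i) ∧
      (∀ i < N j, i * κ ≤ x i ∧ x i ≤ (i + 1) * κ ∧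
        Real.exp (-(φ i)) ≤ ‖VV n i1 θ κ (f j) (x i) - VV n i1 θ κ (f' j) (x i)‖) ∧
      (∀ t : ℕ, t * κ ≤ (η / 10) * κj j → ∃ i, i + t < N j ∧
        φ i + φ (i + t) ≤ (2 + 20 * η) * D) ∧
      (∃ a < N j, φ a ≤ (1 + 10 * η) * D) := by
    intro j hj
    refine hL n i1 (N j) (f j) (f' j) D (κj j) κ θ T (13 / η) (s0 j) ?_ ?_ ?_ hi (hreal j hj)
      (hreal' j hj) (hf j hj) (hf' j hj) (heq j hj) hn' hD100 hκ ?_ ?_ hθ hκθ (hN1 j)
      (hN2 j hj) (hre j hj) (him j hj) (hs j hj)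
    · rw [le_div_iff₀ hη]; linarith
    · rw [hT]
      apply le_of_eq
      ring
    · rw [hT]
      gcongr
      norm_num
    · exact (mul_le_mul_of_nonneg_right hV1 hκ.le).trans (hκjge j hj)
    · exact (mul_le_mul_of_nonneg_left (hκjle j) hT0.le).trans hTκ0
  choose! φ x hφ0 hx hshift hlow using hlev
  -- the product relations
  set X : ℝ := 3 * T * κ0 with hX
  have hX0 : 0 ≤ X := by positivity
  set Δ : ℝ := Real.exp (-((4 + 42 * η) * D)) with hΔ
  have hR : RelQ S n i1 f f' θ κ X Δ := by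
    refine relQ_of hη hη1 le_rfl le_rfl hi hf hf' heq hn' hD100 hκ hθ hκθ ?_ hcon
    have h1 := (hV'κ 0 (Nat.zero_le _)).trans (hκjle 0)
    rw [hX, hT]
    have h2 : 300 * κ / η ≤ κ0 := by
      refine le_trans ?_ h1
      rw [div_mul_eq_mul_div, div_le_div_iff₀ hη hη2]
      have h4 : η ^ 2 ≤ η := by nlinarith
      have h5 := mul_le_mul_of_nonneg_left h4 hκ.le
      have h6 := mul_pos hκ hη
      linarith
    have h3 : κ0 ≤ 11 / η * κ0 := by
      apply le_mul_of_one_le_left hκ0pos.le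
      rw [le_div_iff₀ hη]; linarith
    have h4 : 3 * (23 / η) * κ0 + 11 / η * κ0 = 80 / η * κ0 := by ring
    linarith
  have hxX : ∀ j ≤ S, ∀ i < N j, |x j i| ≤ X := by
    intro j hj i hiN
    obtain ⟨h1, h2, -⟩ := hx j hj i hiN
    have h0 : (0 : ℝ) ≤ i * κ := by positivity
    rw [abs_of_nonneg (h0.trans h1)]
    refine h2.trans ?_
    have h3 : ((i : ℝ) + 1) * κ ≤ N j * κ := by
      apply mul_le_mul_of_nonneg_right _ hκ.le
      exact_mod_cast hiN
    refine h3.trans ((hN2 j hj).trans ?_)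
    rw [hX]
    have := hκjle j
    gcongr
  -- the number of cells
  have hNexp : ∀ j ≤ S, (N j : ℝ) ≤ Real.exp (u / 10 ^ 8) := by
    intro j hj
    have h1 : (N j : ℝ) * κ ≤ 1 := by
      refine (hN2 j hj).trans ?_
      have h2 : 3 * T * κj j ≤ 3 * (T * κ0) := by
        have := hκjle j
        calc 3 * T * κj j = 3 * (T * κj j) := by ring
          _ ≤ 3 * (T * κ0) := by gcongr
      linarith
    have h3 : (N j : ℝ) * Real.exp (-(u / 10 ^ 8)) ≤ 1 := by
      refine le_trans ?_ h1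
      gcongr
    rw [Real.exp_neg, ← div_eq_mul_inv, div_le_one (Real.exp_pos _)] at h3
    exact h3
  -- the induction over the scales
  have hind : ∀ j, j ≤ S → ∀ i < N j, φ j i ≤ (2 + 20 * η) * D →
      ‖VV n i1 θ κ (f j) (x j i) - VV n i1 θ κ (f' j) (x j i)‖ ≤
        4 * Real.exp (-((2 ^ j - 1) * u)) *
          mx (VV n i1 θ κ (f j) (x j i)) (VV n i1 θ κ (f' j) (x j i)) := by
    intro j
    induction j with
    | zero =>
      intro _ i _ _
      simp only [pow_zero, sub_self, zero_mul, neg_zero, Real.exp_zero, mul_one]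
      refine (norm_sub_le _ _).trans ?_
      have h1 : ‖VV n i1 θ κ (f 0) (x 0 i)‖ ≤
          mx (VV n i1 θ κ (f 0) (x 0 i)) (VV n i1 θ κ (f' 0) (x 0 i)) := le_max_left _ _
      have h2 : ‖VV n i1 θ κ (f' 0) (x 0 i)‖ ≤
          mx (VV n i1 θ κ (f 0) (x 0 i)) (VV n i1 θ κ (f' 0) (x 0 i)) := le_max_right _ _
      have h3 := norm_nonneg (VV n i1 θ κ (f 0) (x 0 i))
      linarith
    | succ j ih =>
      intro hj
      have hj' : j ≤ S := by omega
      have ih' := ih hj'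
      have hM : 0 ≤ (2 ^ j - 1) * u :=
        mul_nonneg (by have : (1 : ℝ) ≤ 2 ^ j := one_le_pow₀ (by norm_num); linarith)
          (by linarith)
      have hshift' : ∀ t < N (j + 1), ∃ i, i + t < N j ∧
          φ j i + φ j (i + t) ≤ (2 + 20 * η) * D := by
        intro t ht
        refine hshift j hj' t ?_
        have h1 : (t : ℝ) * κ ≤ N (j + 1) * κ := by
          apply mul_le_mul_of_nonneg_right _ hκ.le
          exact_mod_cast ht.le
        refine h1.trans ((hN2 (j + 1) hj).trans ?_)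
        rw [hκjs, hT, hK]
        have h2 := hκj0 j
        have e : 3 * (23 / η) * (κj j / (700 / η ^ 2)) = (69 / 700 * η) * κj j := by
          field_simp
          ring
        rw [e]
        apply mul_le_mul_of_nonneg_right _ h2.le
        linarith
      have hb := step_scale hi hX0 hκ hreal hreal' hu8 hR hj (hφ0 j hj') (hx j hj')
        (hx (j + 1) hj) (hxX j hj') (hxX (j + 1) hj) hshift' (hNexp (j + 1) hj) hM ih'
      intro i hiN hφi
      have := hb i hiN hφi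
      have e : 2 * ((2 ^ j - 1) * u) + u = (2 ^ (j + 1) - 1) * u := by
        rw [pow_succ]; ring
      rw [e] at this
      exact this
  -- the contradiction at the lowest scale
  obtain ⟨a, haN, hφa⟩ := hlow S le_rfl
  have h1 := hind S le_rfl a haN (hφa.trans (by nlinarith))
  have h2 := (hx S le_rfl a haN).2.2
  have h3 : mx (VV n i1 θ κ (f S) (x S a)) (VV n i1 θ κ (f' S) (x S a)) ≤ Real.exp u := by
    have h4 : ((n : ℝ) + 1) * Real.exp (κ ^ 2 * θ ^ 2 / 2) ≤ Real.exp u := by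
      calc ((n : ℝ) + 1) * Real.exp (κ ^ 2 * θ ^ 2 / 2)
          ≤ Real.exp (η * D / 100) * Real.exp (κ ^ 2 * θ ^ 2 / 2) := by gcongr
        _ ≤ Real.exp u := by
          rw [← Real.exp_add, hκθ, ← hu]
          apply Real.exp_le_exp.2
          linarith
    exact max_le ((norm_VV_le hθ (hf S le_rfl) _).trans h4)
      ((norm_VV_le hθ (hf' S le_rfl) _).trans h4)
  exact final_aux hη hη1 hu8 hD0 hS hφa h1 h2 h3 (le_max_of_le_left (norm_nonneg _))

end Vale.Agent.P321.H775
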